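import Vale.Agent.P213.Basic.WE
import Mathlib.AlgebraicTopology.SimplicialSet.Subdivision
import Mathlib.CategoryTheory.Limits.Preserves.Filtered
import Mathlib.CategoryTheory.MorphismProperty.TransfiniteComposition

/-!
# Frozen goals of the simplicial-set half (M7, M8, M9), as consumed by the main assembly

Owners prove each as a theorem `…Goal` in their own files; nothing here is assumed by any hand-in.
-/

open CategoryTheory CategoryTheory.Limits Simplicial MorphismProperty
open scoped SSet.modelCategoryQuillen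

namespace Vale.Agent.P213

/-- M7: closure properties of weak homotopy equivalences. -/
def TwoThreeGoal : Prop := IsWE.HasTwoOutOfThreeProperty ∧ IsWE.IsStableUnderRetracts

/-- M7: cobase change along monomorphisms, and of trivial cofibrations. -/
def CobaseGoal : Prop :=
  ∀ {A B A' B' : SSet.{0}} (i : A ⟶ B) (f : A ⟶ A') (f' : B ⟶ B') (i' : A' ⟶ B'),
    IsPushout i f f' i' → Mono i → (IsWE f → IsWE f') ∧ (IsWE i → IsWE i')

/-- M7: transfinite compositions of monomorphisms that are weak homotopy equivalences. -/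
def TransfiniteGoal : Prop :=
  (monomorphisms SSet.{0} ⊓ IsWE).IsStableUnderTransfiniteComposition.{0}

/-- M7: a levelwise weak homotopy equivalence between sequences of monomorphisms. -/
def SeqColimitGoal : Prop :=
  ∀ (F F' : ℕ ⥤ SSet.{0}) (τ : F ⟶ F') (c : Cocone F) (c' : Cocone F') (f : c.pt ⟶ c'.pt),
    Nonempty (IsColimit c) → Nonempty (IsColimit c') →
    (∀ k, Mono (F.map (homOfLE (Nat.le_succ k))) ∧ Mono (F'.map (homOfLE (Nat.le_succ k)))) →
    (∀ k, c.ι.app k ≫ f = τ.app k ≫ c'.ι.app k) → (∀ k, IsWE (τ.app k)) → IsWE f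

/-- M7: coproducts of horn inclusions are weak homotopy equivalences. -/
def HornGoal : Prop :=
  ∀ (ι : Type) (m : ι → ℕ) (k : ∀ a, Fin (m a + 2)),
    IsWE (Limits.Sigma.map fun a => (SSet.horn.{0} (m a + 1) (k a)).ι)

/-- M8: a Kan fibration is a weak homotopy equivalence iff it is a trivial fibration. -/
def TrivFibGoal : Prop :=
  ∀ {X Y : SSet.{0}} (p : X ⟶ Y), (KanFib p ∧ IsWE p) ↔ SSet.modelCategoryQuillen.I.{0}.rlp p

/-- M8: a last vertex map `sd X ⟶ X`, natural, such that it and its mate `X ⟶ ex X` are weak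
homotopy equivalences. -/
def LastVertexGoal : Prop :=
  ∃ lv : SSet.sd.{0} ⟶ 𝟭 SSet.{0}, (∀ X, IsWE (lv.app X)) ∧
    ∀ X : SSet.{0}, IsWE (SSet.sdExAdjunction.homEquiv X X (lv.app X))

/-- M8/M9: subdivision preserves monomorphisms. -/
def SdMonoGoal : Prop := ∀ {A B : SSet.{0}} (i : A ⟶ B), Mono i → Mono (SSet.sd.{0}.map i)

/-- M8: `ex` preserves filtered colimits. -/
def ExFilteredGoal : Prop := PreservesFilteredColimitsOfSize.{0, 0} SSet.ex.{0}

/-- A down-closed `A` such that below every element outside it `A` has nothing or a maximum. -/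
def IsGoodSieve {P : Type} [PartialOrder P] (A : Set P) : Prop :=
  (∀ x y, x ≤ y → y ∈ A → x ∈ A) ∧
    ∀ T ∉ A, (∀ x ∈ A, ¬ x ≤ T) ∨ ∃ mx ∈ A, mx ≤ T ∧ ∀ x ∈ A, x ≤ T → x ≤ mx

/-- The nerve inclusion of a subset of a partial order. -/
abbrev nerveIncl {P : Type} [PartialOrder P] (A : Set P) :=
  PartOrd.nerveFunctor.map
    (PartOrd.ofHom (X := A) (Y := P) (OrderHom.Subtype.val (· ∈ A)))

/-- M9: `sd²` of a generating cofibration or trivial cofibration is the nerve inclusion of a good
sieve into a finite partial order. -/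
def Sd2Goal : Prop :=
  ∀ {A B : SSet.{0}} (i : A ⟶ B),
    (SSet.modelCategoryQuillen.I ⊔ SSet.modelCategoryQuillen.J) i →
    ∃ (P : Type) (_ : PartialOrder P) (S : Set P), Finite P ∧ IsGoodSieve S ∧
      Nonempty (Arrow.mk (SSet.sd.map (SSet.sd.map i)) ≅ Arrow.mk (nerveIncl S))

end Vale.Agent.P213
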