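import Vale.Agent.P213.Main.SSetGoals

/-!
# The interface between the strict-category half and the main assembly
-/

open CategoryTheory CategoryTheory.Limits

namespace Vale.Agent.P213

universe u

/-- M6: gluing along good sieves. A pushout in `C` of a coproduct of good sieve inclusions has
injective nerve, and is sent by the nerve to a homotopy pushout. -/
def GlueGoal {C : Type u} [Category.{0} C] (G : C ⥤ SSet.{0}) : Prop :=
  ∀ (c : SSet.{0} ⥤ C) (adj : c ⊣ G) (ι : Type) (P : ι → Type) [∀ a, PartialOrder (P a)]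
    (S : ∀ a, Set (P a)), (∀ a, Finite (P a)) → (∀ a, IsGoodSieve (S a)) →
    ∀ {Z Z' : C}
      (top : c.obj (∐ fun a => PartOrd.nerveFunctor.obj (.of (S a))) ⟶ Z)
      (bot : c.obj (∐ fun a => PartOrd.nerveFunctor.obj (.of (P a))) ⟶ Z') (g : Z ⟶ Z'),
      IsPushout top (c.map (Limits.Sigma.map fun a => nerveIncl (S a))) g bot →
      Mono (G.map g) ∧
        ∀ {W : SSet.{0}} (j : G.obj Z ⟶ W) (k : (∐ fun a => PartOrd.nerveFunctor.obj (.of (P a))) ⟶ W)
          (e : W ⟶ G.obj Z'),
          IsPushout (adj.homEquiv _ _ top) (Limits.Sigma.map fun a => nerveIncl (S a)) j k →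
          j ≫ e = G.map g → k ≫ e = adj.homEquiv _ _ bot → IsWE e

/-- The nerve of an initial object is empty. -/
def InitialGoal {C : Type u} [Category.{0} C] (G : C ⥤ SSet.{0}) : Prop :=
  ∀ Z : C, IsInitial Z → ∀ m, IsEmpty ((G.obj Z).obj m)

end Vale.Agent.P213
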