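import Mathlib.CategoryTheory.MorphismProperty.Limits
import Mathlib.CategoryTheory.Limits.Preserves.Shapes.Products
import Mathlib.CategoryTheory.Comma.Arrow

/-!
# Coproducts of maps in a family, as arrows
-/

open CategoryTheory CategoryTheory.Limits

namespace Vale.Agent.P213

universe u u'

variable {C : Type u} [Category.{0} C] [HasCoproducts.{0} C]

/-- A coproduct of members of a family is, as an arrow, `Sigma.map` of a subfamily. -/
theorem coproducts_ofHoms {ι : Type} {Xg Yg : ι → C} (g : ∀ a, Xg a ⟶ Yg a) {A B : C} (f : A ⟶ B)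
    (h : MorphismProperty.coproducts.{0} (MorphismProperty.ofHoms g) f) :
    ∃ (J : Type) (x : J → ι), Nonempty
      (Arrow.mk f ≅ Arrow.mk (Limits.Sigma.map fun j => g (x j))) := by
  obtain ⟨J, h⟩ := (MorphismProperty.coproducts_iff _ f).1 h
  obtain ⟨X₁, X₂, c₁, c₂, h₁, h₂, φ, hφ⟩ := h
  choose x hx using fun j : J => (MorphismProperty.ofHoms_iff g _).1 (hφ ⟨j⟩)
  let e : ∀ j : J, Arrow.mk (φ.app ⟨j⟩) ≅ Arrow.mk (g (x j)) := fun j => eqToIso (hx j)
  let l : X₁ ≅ Discrete.functor fun j => Xg (x j) :=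
    Discrete.natIso fun d => Arrow.leftFunc.mapIso (e d.as)
  let r : X₂ ≅ Discrete.functor fun j => Yg (x j) :=
    Discrete.natIso fun d => Arrow.rightFunc.mapIso (e d.as)
  refine ⟨J, x, ⟨Arrow.isoMk (IsColimit.coconePointsIsoOfNatIso h₁ (colimit.isColimit _) l)
    (IsColimit.coconePointsIsoOfNatIso h₂ (colimit.isColimit _) r) ?_⟩⟩
  refine h₁.hom_ext fun ⟨j⟩ => ?_
  have w : (e j).hom.left ≫ g (x j) = φ.app ⟨j⟩ ≫ (e j).hom.right := Arrow.w (e j).hom
  simp only [Arrow.mk_hom, IsColimit.coconePointsIsoOfNatIso_hom, IsColimit.ι_map_assoc,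
    IsColimit.fac_assoc, NatTrans.comp_app, Category.assoc, IsColimit.ι_map]
  show (e j).hom.left ≫ Sigma.ι (fun j => Xg (x j)) j ≫ Limits.Sigma.map (fun j => g (x j)) =
    φ.app ⟨j⟩ ≫ (e j).hom.right ≫ Sigma.ι (fun j => Yg (x j)) j
  rw [Sigma.ι_map, ← Category.assoc, w, Category.assoc]

/-- A functor preserving coproducts commutes with `Sigma.map`, as arrows. -/
noncomputable def mapSigmaIso {D : Type u'} [Category.{0} D] [HasCoproducts.{0} D] (F : C ⥤ D)
    {J : Type} [PreservesColimitsOfShape (Discrete J) F] {X Y : J → C} (g : ∀ j, X j ⟶ Y j) :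
    Arrow.mk (F.map (Limits.Sigma.map g)) ≅ Arrow.mk (Limits.Sigma.map fun j => F.map (g j)) :=
  (Arrow.isoMk (PreservesCoproduct.iso F X).symm (PreservesCoproduct.iso F Y).symm (by
    apply Sigma.hom_ext
    intro j
    simp only [Iso.symm_hom, PreservesCoproduct.inv_hom, Arrow.mk_hom]
    rw [ι_comp_sigmaComparison_assoc, Sigma.ι_map_assoc, ι_comp_sigmaComparison, ← F.map_comp,
      ← F.map_comp, Sigma.ι_map])).symm

/-- Coproducts of isomorphic arrows. -/
noncomputable def sigmaArrowIso {J : Type} {X Y X' Y' : J → C} {g : ∀ j, X j ⟶ Y j}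
    {g' : ∀ j, X' j ⟶ Y' j} (e : ∀ j, Arrow.mk (g j) ≅ Arrow.mk (g' j)) :
    Arrow.mk (Limits.Sigma.map g) ≅ Arrow.mk (Limits.Sigma.map g') :=
  Arrow.isoMk (Sigma.mapIso (f := X) (g := X') fun j => Arrow.leftFunc.mapIso (e j))
    (Sigma.mapIso (f := Y) (g := Y') fun j => Arrow.rightFunc.mapIso (e j)) (by
      apply Sigma.hom_ext
      intro j
      have w : (e j).hom.left ≫ g' j = g j ≫ (e j).hom.right := Arrow.w (e j).hom
      show Sigma.ι X j ≫ Limits.Sigma.map (fun j => (e j).hom.left) ≫ Limits.Sigma.map g' =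
        Sigma.ι X j ≫ Limits.Sigma.map g ≫ Limits.Sigma.map fun j => (e j).hom.right
      rw [Sigma.ι_map_assoc, Sigma.ι_map, Sigma.ι_map_assoc, Sigma.ι_map, ← Category.assoc, w,
        Category.assoc]
      rfl)

end Vale.Agent.P213
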