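import Vale.Agent.P213.Basic.WE
import Mathlib.AlgebraicTopology.ModelCategory.Basic
import Mathlib.AlgebraicTopology.SimplicialSet.Subdivision

/-!
# The Thomason classes of a nerve functor and the statement of the conjecture

For a nerve functor `G : C ⥤ SSet`: weak equivalences are sent by `G` to weak homotopy equivalences,
fibrations are sent by `Ex² G` to Kan fibrations, cofibrations have the left lifting property
against the maps which are both. `sd` and `ex` are Mathlib's subdivision and extension functors.
-/

open CategoryTheory CategoryTheory.Limits HomotopicalAlgebra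

namespace Vale.Agent.P213

universe u

variable {C : Type u} [Category.{0} C] (G : C ⥤ SSet.{0})

/-- The right adjoint `Ex² ∘ G`. -/
noncomputable abbrev ex2N : C ⥤ SSet.{0} := G ⋙ SSet.ex ⋙ SSet.ex

/-- The weak equivalences: `G f` is a weak homotopy equivalence. -/
def thomasonW : MorphismProperty C := IsWE.inverseImage G

/-- The fibrations: `Ex² (G f)` is a Kan fibration. -/
noncomputable def thomasonF : MorphismProperty C := KanFib.inverseImage (ex2N G)

/-- The cofibrations: left lifting property against the fibrations that are weak equivalences. -/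
noncomputable def thomasonC : MorphismProperty C := (thomasonF G ⊓ thomasonW G).llp

/-- The three classes form a model structure (Mathlib's Quillen axioms CM1–CM5). -/
def IsModelStructure (W F Cf : MorphismProperty C) : Prop :=
  ∃ M : ModelCategory C,
    @weakEquivalences C _ M.categoryWithWeakEquivalences = W ∧
    @fibrations C _ M.categoryWithFibrations = F ∧
    @cofibrations C _ M.categoryWithCofibrations = Cf

/-- An adjunction with the Kan–Quillen structure is a Quillen equivalence: the left adjoint takes
monomorphisms to cofibrations and those that are weak homotopy equivalences to trivial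
cofibrations, and for every simplicial set `X` and fibrant `Y` a map `L X ⟶ Y` is a weak
equivalence iff its adjunct is a weak homotopy equivalence. -/
def IsQuillenEquivalence (W F Cf : MorphismProperty C) {L : SSet.{0} ⥤ C} {R : C ⥤ SSet.{0}}
    (adj : L ⊣ R) : Prop :=
  (∀ ⦃A B : SSet.{0}⦄ (i : A ⟶ B), Mono i →
    Cf (L.map i) ∧ (IsWE i → W (L.map i))) ∧
  ∀ (T : C), Nonempty (IsTerminal T) → ∀ (X : SSet.{0}) (Y : C), (∀ t : Y ⟶ T, F t) →
    ∀ f : L.obj X ⟶ Y, W f ↔ IsWE (adj.homEquiv X Y f)

/-- The model structure exists, `G` has a left adjoint `c`, and for every left adjoint `c` the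
adjunction `c Sd² ⊣ Ex² G` is a Quillen equivalence. -/
def ThomasonTheorem : Prop :=
  IsModelStructure (thomasonW G) (thomasonF G) (thomasonC G) ∧
  (∃ c : SSet.{0} ⥤ C, Nonempty (c ⊣ G)) ∧
  ∀ (c : SSet.{0} ⥤ C) (adj : c ⊣ G),
    IsQuillenEquivalence (thomasonW G) (thomasonF G) (thomasonC G)
      (SSet.sdExAdjunction.comp (SSet.sdExAdjunction.comp adj))

end Vale.Agent.P213
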