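import Vale.Agent.P213.Main.Quillen
import Vale.Agent.P213.Nerve.Nerve
import Vale.Agent.P213.Colim.Limits

/-!
# The Street nerve satisfies the interface of the assembly
-/

open CategoryTheory CategoryTheory.Limits Simplicial

namespace Vale.Agent.P213

/-- The empty ω-category. -/
def emptyOCat : OCat where
  Cell := Empty
  src _ a := a
  tgt _ a := a
  comp _ a _ _ := a
  src_src _ _ a := a.elim
  tgt_tgt _ _ a := a.elim
  src_tgt_lt _ _ a := a.elim
  src_tgt_ge _ _ a := a.elim
  tgt_src_lt _ _ a := a.elim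
  tgt_src_ge _ _ a := a.elim
  exists_dim a := a.elim
  comp_unit_right _ a := a.elim
  comp_unit_left _ a := a.elim
  src_comp_le _ _ a := a.elim
  tgt_comp_le _ _ a := a.elim
  src_comp_gt _ _ a := a.elim
  tgt_comp_gt _ _ a := a.elim
  assoc _ a := a.elim
  interchange _ _ a := a.elim

theorem initialGoal_nerve (n : ℕ∞) : InitialGoal (NCat.nerveFunctor n) := fun _ hZ _ =>
  ⟨fun x => ((hZ.to ⟨emptyOCat, fun _ a => a.elim⟩).hom.map (vtx x 0)).elim⟩

/-- The facts on the nerve of `n`-categories, given Steiner's theorem and gluing. -/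
theorem nerveFacts (n : ℕ∞) (hU : ADC.FreeUniqueGoal) (hE : ADC.FreeExtendGoal)
    (hO : ∀ m, (ADC.oriental m).IsSteiner) (hglue : GlueGoal (NCat.nerveFunctor n)) :
    NerveFacts (NCat.nerveFunctor n) where
  hasLimits := inferInstance
  hasColimits := inferInstance
  filtered := NCat.nerveFunctor_preservesFilteredColimits hU hE hO n
  glue := hglue
  initial := initialGoal_nerve n
  leftAdjoint := ⟨NCat.nerveLeft n, ⟨NCat.nerveAdj n⟩⟩

end Vale.Agent.P213
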