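import Vale.Agent.P213.Main.SSetFacts
import Vale.Agent.P213.Main.Nerve
import Vale.Agent.P213.Glue.Final
import Vale.Agent.P213.HT.Gluing
import Vale.Agent.P213.HT.Coprod
import Vale.Agent.P213.Cplx.ChainsSteiner
import Vale.Agent.P213.Main.Oriental.Transport
import Vale.Agent.P213.Free.Stage
import Vale.Agent.P213.Free.Extend.Main
import Vale.Agent.P213.WE.SeqColim

/-!
# The Thomason model structure on strict n-categories, for every n
-/

namespace Vale.Agent.P213



/-- For every `1 ≤ n ≤ ω` the Thomason classes of the Street nerve form a model structure on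
strict `n`-categories, Quillen equivalent to simplicial sets by `c_n Sd² ⊣ Ex² N_n`. -/
theorem thomason_nCat_of (htriv : TrivFibGoal)
    (inp : ∀ n : ℕ∞, 1 ≤ n → Glue.GlueInput (NCat.nerveFunctor n)) :
    ∀ n : ℕ∞, 1 ≤ n → ThomasonTheorem (Oriental.nerveN n) := fun n hn =>
  ThomasonTheorem.of_iso (Oriental.nerveIso n) <| thomason_of_goals (sSetFacts_of seqColimitGoal htriv)
    (nerveFacts n ADC.freeUnique ADC.freeExtend ADC.oriental_isSteiner
      (Glue.glueGoal (inp n hn) HT.gluingGoal HT.coprodGoal))

end Vale.Agent.P213
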