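import Vale.Agent.P213.Main.Defs
import Vale.Agent.P213.Main.GlueGoal
import Vale.Agent.P213.Main.Coprod

/-!
# Gluing along `c sd²` of coproducts of generating cofibrations
-/

open CategoryTheory CategoryTheory.Limits MorphismProperty

namespace Vale.Agent.P213

universe u

variable {C : Type u} [Category.{0} C] (G : C ⥤ SSet.{0})

/-- The bundled goals of the simplicial-set half. -/
structure SSetFacts : Prop where
  twoThree : TwoThreeGoal
  cobase : CobaseGoal
  transfinite : TransfiniteGoal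
  seqColimit : SeqColimitGoal
  horn : HornGoal
  trivFib : TrivFibGoal
  lastVertex : LastVertexGoal
  sdMono : SdMonoGoal
  exFiltered : ExFilteredGoal
  sd2 : Sd2Goal

/-- Pushouts in `C` of `c u` have injective nerves and are homotopy pushouts under `G`. -/
def GluesAlong (c : SSet.{0} ⥤ C) (adj : c ⊣ G) {S T : SSet.{0}} (u : S ⟶ T) : Prop :=
  ∀ ⦃Z Z'⦄ (top : c.obj S ⟶ Z) (bot : c.obj T ⟶ Z') (g : Z ⟶ Z'),
    IsPushout top (c.map u) g bot →
    Mono (G.map g) ∧ ∀ {W : SSet.{0}} (j : G.obj Z ⟶ W) (k : T ⟶ W) (e : W ⟶ G.obj Z'),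
      IsPushout (adj.homEquiv _ _ top) u j k → j ≫ e = G.map g →
      k ≫ e = adj.homEquiv _ _ bot → IsWE e

variable {G} {c : SSet.{0} ⥤ C} {adj : c ⊣ G}

theorem GluesAlong.of_arrow_iso {S T S' T' : SSet.{0}} {u : S ⟶ T} {u' : S' ⟶ T'}
    (e : Arrow.mk u ≅ Arrow.mk u') (h : GluesAlong G c adj u') : GluesAlong G c adj u := by
  intro Z Z' top bot g hp
  have w : e.inv.left ≫ u = u' ≫ e.inv.right := Arrow.w e.inv
  let eS : S' ≅ S := (Arrow.leftFunc.mapIso e).symm
  let eT : T' ≅ T := (Arrow.rightFunc.mapIso e).symm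
  have hs : IsPushout (c.map eS.hom ≫ top) (c.map u') g (c.map eT.hom ≫ bot) :=
    IsPushout.of_iso hp (c.mapIso eS.symm) (Iso.refl _) (c.mapIso eT.symm) (Iso.refl _)
      (by simp [← c.map_comp_assoc])
      (by
        have : u ≫ eT.inv = eS.inv ≫ u' := (Iso.comp_inv_eq eT).2 (by
          rw [Category.assoc, show u' ≫ eT.hom = eS.hom ≫ u from w.symm, Iso.inv_hom_id_assoc])
        simp only [Functor.mapIso_hom, Iso.symm_hom, ← c.map_comp, this])
      (by simp) (by simp [← c.map_comp_assoc])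
  refine ⟨(h _ _ g hs).1, fun {W} j k f hpo h1 h2 =>
    (h _ _ g hs).2 j (eT.hom ≫ k) f ?_ h1 ?_⟩
  · rw [Adjunction.homEquiv_naturality_left]
    refine IsPushout.of_iso hpo eS.symm (Iso.refl _) eT.symm (Iso.refl _) (by simp) ?_ (by simp)
      (by simp)
    exact (Iso.comp_inv_eq eT).2 (by
      rw [Category.assoc, show u' ≫ eT.hom = eS.hom ≫ u from w.symm]
      simp)
  · rw [Adjunction.homEquiv_naturality_left, Category.assoc, h2]

variable (adj) in
/-- Gluing along `sd²` of any coproduct of generating (trivial) cofibrations. -/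
theorem gluesAlong_sd2 (hS : SSetFacts) (hG : GlueGoal G) {ι : Type} {A B : ι → SSet.{0}}
    (i : ∀ a, A a ⟶ B a)
    (hi : ∀ a, (SSet.modelCategoryQuillen.I ⊔ SSet.modelCategoryQuillen.J) (i a)) :
    GluesAlong G c adj ((SSet.sd ⋙ SSet.sd).map (Limits.Sigma.map i)) := by
  choose P instP S hfin hgood he using fun a => hS.sd2 (i a) (hi a)
  have : PreservesColimitsOfShape (Discrete ι) (SSet.sd ⋙ SSet.sd) :=
    (SSet.sdExAdjunction.comp SSet.sdExAdjunction).leftAdjoint_preservesColimits.preservesColimitsOfShape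
  let e : ∀ a, Arrow.mk ((SSet.sd ⋙ SSet.sd).map (i a)) ≅ Arrow.mk (nerveIncl (S a)) :=
    fun a => (he a).some
  refine GluesAlong.of_arrow_iso (G := G) (c := c) (adj := adj) ((mapSigmaIso (SSet.sd ⋙ SSet.sd) i) ≪≫ sigmaArrowIso e) ?_
  intro Z Z' top bot g hp
  exact hG c adj ι P S hfin hgood top bot g hp

end Vale.Agent.P213
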