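import Vale.Agent.P213.Main.Transfer
import Vale.Agent.P213.WE.HtpcBasic
import Mathlib.AlgebraicTopology.SimplicialSet.Skeleton

/-!
# The unit is a weak equivalence, and the Quillen equivalence
-/

open CategoryTheory CategoryTheory.Limits MorphismProperty Simplicial
open scoped SSet.modelCategoryQuillen

namespace Vale.Agent.P213

universe u

/-- A simplicial set without simplices is initial. -/
noncomputable def isInitialOfIsEmpty (S : SSet.{0}) (h : ∀ m, IsEmpty (S.obj m)) : IsInitial S :=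
  IsInitial.ofUniqueHom (fun _ =>
    { app := fun m => TypeCat.ofHom fun x => ((h m).false x).elim
      naturality := fun m _ f => by ext x; exact ((h m).false x).elim })
    fun _ φ => by ext m x; exact ((h _).false x).elim

variable {C : Type u} [Category.{0} C] {G : C ⥤ SSet.{0}} {c : SSet.{0} ⥤ C} (adj : c ⊣ G)
  (hS : SSetFacts) (hG : NerveFacts G)

theorem preservesColimits_sd2 :
    PreservesColimitsOfSize.{0, 0} (SSet.sd.{0} ⋙ SSet.sd.{0}) :=
  (SSet.sdExAdjunction.comp SSet.sdExAdjunction).leftAdjoint_preservesColimits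

/-- The unit at `sd² X`. -/
noncomputable abbrev unitSd2 (X : SSet.{0}) :
    (SSet.sd ⋙ SSet.sd).obj X ⟶ G.obj (c.obj ((SSet.sd ⋙ SSet.sd).obj X)) :=
  adj.unit.app _

include hG in
theorem isWE_unitSd2_of_isInitial (Z : SSet.{0}) (hZ : IsInitial Z) : IsWE (unitSd2 adj Z) := by
  have h₁ : IsInitial ((SSet.sd ⋙ SSet.sd).obj Z) :=
    have := preservesColimits_sd2
    hZ.isInitialObj (SSet.sd ⋙ SSet.sd)
  have h₂ : IsInitial (G.obj (c.obj ((SSet.sd ⋙ SSet.sd).obj Z))) :=
    have := adj.leftAdjoint_preservesColimits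
    isInitialOfIsEmpty _ (hG.initial _ (h₁.isInitialObj c))
  have : IsIso (unitSd2 adj Z) := ⟨h₂.to _, h₁.hom_ext _ _, h₂.hom_ext _ _⟩
  exact IsWE.of_isIso _

include hS hG in
/-- A step of the skeleton induction. -/
theorem unitSd2_step {ι : Type} (d : ℕ) {X Y : SSet.{0}}
    (t : (∐ fun _ : ι => (∂Δ[d] : SSet)) ⟶ X) (r : X ⟶ Y) (b : (∐ fun _ : ι => Δ[d]) ⟶ Y)
    (hpo : IsPushout t (Limits.Sigma.map fun _ : ι => (SSet.boundary.{0} d).ι) r b) (hr : Mono r) :
    Mono (G.map (c.map ((SSet.sd ⋙ SSet.sd).map r))) ∧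
      (IsWE (unitSd2 adj X) → IsWE (unitSd2 adj Y)) := by
  have := preservesColimits_sd2
  have := adj.leftAdjoint_preservesColimits
  have := hS.twoThree.1
  have hP := hpo.map (SSet.sd ⋙ SSet.sd)
  obtain ⟨hmono, hglue⟩ := gluesAlong_sd2 adj hS hG.glue (fun _ : ι => (SSet.boundary.{0} d).ι)
    (fun _ => Or.inl ⟨d⟩) _ _ _ (hP.map c)
  refine ⟨hmono, fun hX => ?_⟩
  have hr2 : Mono ((SSet.sd ⋙ SSet.sd).map r) := hS.sdMono _ (hS.sdMono _ hr)
  have hnat : (SSet.sd ⋙ SSet.sd).map r ≫ unitSd2 adj Y =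
      unitSd2 adj X ≫ G.map (c.map ((SSet.sd ⋙ SSet.sd).map r)) := adj.unit.naturality _
  let P := IsPushout.of_hasPushout (unitSd2 adj X) ((SSet.sd ⋙ SSet.sd).map r)
  let e := pushout.desc (G.map (c.map ((SSet.sd ⋙ SSet.sd).map r))) (unitSd2 adj Y) hnat.symm
  have hinr := (hS.cobase _ _ _ _ P.flip hr2).1 hX
  have hPW := hP.paste_horiz P.flip.flip
  have ht : adj.homEquiv _ _ (c.map ((SSet.sd ⋙ SSet.sd).map t)) =
      (SSet.sd ⋙ SSet.sd).map t ≫ unitSd2 adj X := by
    rw [Adjunction.homEquiv_unit]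
    exact (adj.unit.naturality _).symm
  have hb : adj.homEquiv _ _ (c.map ((SSet.sd ⋙ SSet.sd).map b)) =
      (SSet.sd ⋙ SSet.sd).map b ≫ unitSd2 adj Y := by
    rw [Adjunction.homEquiv_unit]
    exact (adj.unit.naturality _).symm
  have he : IsWE e := hglue (pushout.inl _ _) ((SSet.sd ⋙ SSet.sd).map b ≫ pushout.inr _ _) e
    (ht ▸ hPW) (pushout.inl_desc _ _ _)
    (by rw [hb, Category.assoc, pushout.inr_desc])
  have := IsWE.comp hinr he
  rwa [pushout.inr_desc] at this

include hS hG in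
/-- The unit of `c ⊣ G` at every double subdivision is a weak homotopy equivalence. -/
theorem isWE_unitSd2 (X : SSet.{0}) : IsWE (unitSd2 adj X) := by
  have := preservesColimits_sd2
  have := adj.leftAdjoint_preservesColimits
  have := hG.filtered
  have : PreservesColimitsOfShape ℕ G :=
    PreservesFilteredColimitsOfSize.preserves_filtered_colimits _
  let K := SSet.relativeCellComplex X
  let T := SSet.sd ⋙ SSet.sd
  have hstep : ∀ n : ℕ, Mono (K.F.map (homOfLE (Nat.le_succ n))) ∧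
      Mono (G.map (c.map (T.map (K.F.map (homOfLE (Nat.le_succ n)))))) ∧
      (IsWE (unitSd2 adj (K.F.obj n)) → IsWE (unitSd2 adj (K.F.obj (n + 1)))) := fun n => by
    have hr : Mono (K.F.map (homOfLE (Nat.le_succ n))) :=
      inferInstanceAs (Mono (SSet.Subcomplex.homOfLE
        ((SSet.skeletonOfMono (⊥ : X.Subcomplex).ι).monotone (Nat.le_succ n))))
    exact ⟨hr, unitSd2_step adj hS hG n _ _ _
      (SSet.relativeCellComplexOfMono.isPushout (⊥ : X.Subcomplex).ι n) hr⟩
  have hn : ∀ n : ℕ, IsWE (unitSd2 adj (K.F.obj n)) := by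
    intro n
    induction n with
    | zero =>
      refine isWE_unitSd2_of_isInitial adj hG (K.F.obj 0) ?_
      exact SSet.Subcomplex.isInitialBot.ofIso K.isoBot.symm
    | succ n ih => exact (hstep n).2.2 ih
  let τ : K.F ⋙ T ⟶ (K.F ⋙ T) ⋙ c ⋙ G := Functor.whiskerLeft (K.F ⋙ T) adj.unit
  let cc : Cocone K.F := Cocone.mk X K.incl
  exact hS.seqColimit (K.F ⋙ T) ((K.F ⋙ T) ⋙ c ⋙ G) τ (T.mapCocone cc)
    ((c ⋙ G).mapCocone (T.mapCocone cc)) (unitSd2 adj X)
    ⟨isColimitOfPreserves T K.isColimit⟩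
    ⟨isColimitOfPreserves (c ⋙ G) (isColimitOfPreserves T K.isColimit)⟩
    (fun k => ⟨hS.sdMono _ (hS.sdMono _ (hstep k).1), (hstep k).2.1⟩)
    (fun k => adj.unit.naturality _) hn

include hS hG in
/-- The adjunction `c sd² ⊣ ex² G` is a Quillen equivalence. -/
theorem isQuillenEquivalence_thomason :
    IsQuillenEquivalence (thomasonW G) (thomasonF G) (thomasonC G) (adj2 adj) := by
  have := hS.twoThree.1
  refine ⟨fun A B i hi => ⟨fun X Y p hp => ?_, fun hwe => ?_⟩, fun _ _ X Y _ f => ?_⟩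
  · refine ((adj2 adj).hasLiftingProperty_iff _ _).2 ?_
    have h := (hS.trivFib _).1 ⟨hp.1, (thomasonW_iff hS p).1 hp.2⟩
    rw [← SSet.rlp_monomorphisms] at h
    exact h _ ((monomorphisms.iff _).2 hi)
  · have h₂ : IsWE ((SSet.sd ⋙ SSet.sd).map i) :=
      (SdEx.sd_map_iff hS.twoThree hS.lastVertex _).2
        ((SdEx.sd_map_iff hS.twoThree hS.lastVertex _).2 hwe)
    refine IsWE.of_comp_left (isWE_unitSd2 adj hS hG A) ?_
    have hnat : (SSet.sd ⋙ SSet.sd).map i ≫ unitSd2 adj B =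
        unitSd2 adj A ≫ G.map (c.map ((SSet.sd ⋙ SSet.sd).map i)) := adj.unit.naturality _
    exact hnat ▸ IsWE.comp h₂ (isWE_unitSd2 adj hS hG B)
  · simp only [adj2, Adjunction.comp_homEquiv, Equiv.trans_apply]
    rw [SdEx.homEquiv_iff hS.twoThree hS.lastVertex, SdEx.homEquiv_iff hS.twoThree hS.lastVertex,
      Adjunction.homEquiv_unit]
    exact ⟨fun h => IsWE.comp (isWE_unitSd2 adj hS hG X) h,
      fun h => IsWE.of_comp_left (isWE_unitSd2 adj hS hG X) h⟩

omit adj in
include hS hG in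
/-- The theorem, from the goals of the two halves. -/
theorem thomason_of_goals : ThomasonTheorem G := by
  obtain ⟨c, ⟨adj⟩⟩ := hG.leftAdjoint
  exact ⟨isModelStructure_thomason adj hS hG, ⟨c, ⟨adj⟩⟩,
    fun c' adj' => isQuillenEquivalence_thomason adj' hS hG⟩

end Vale.Agent.P213
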