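import Vale.Agent.P213.Main.Glue
import Vale.Agent.P213.WE.KanTarget
import Vale.Agent.P213.HT.Proper
import Vale.Agent.P213.HT.MonoWEIff
import Vale.Agent.P213.Ex.LastVertexWE
import Vale.Agent.P213.Ex.Filtered
import Vale.Agent.P213.Sd2.Goal
import Vale.Agent.P213.Sd2.SdMono

/-!
# The simplicial-set half, assembled
-/

open CategoryTheory CategoryTheory.Limits MorphismProperty

namespace Vale.Agent.P213

/-- The facts on simplicial sets, up to the two goals passed as arguments. -/
theorem sSetFacts_of (hseq : SeqColimitGoal) (htriv : TrivFibGoal) : SSetFacts where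
  twoThree := twoThreeGoal
  cobase := HT.cobaseGoal
  transfinite := inferInstanceAs
    (IsStableUnderTransfiniteComposition.{0} (monomorphisms SSet.{0} ⊓ IsWE))
  seqColimit := hseq
  horn := hornGoal
  trivFib := htriv
  lastVertex := Subdiv.lastVertexGoal
  sdMono := Sd2.sdMonoGoal
  exFiltered := Subdiv.exFilteredGoal
  sd2 := Sd2.sd2Goal

end Vale.Agent.P213
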