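import Vale.Agent.P213.Main.SSetGoals

/-!
# Consequences of the last vertex map for `sd ⊣ ex`

`sd` and `ex` preserve and reflect weak homotopy equivalences, and so does passing to adjuncts.
-/

open CategoryTheory

namespace Vale.Agent.P213.SdEx

variable (hW : TwoThreeGoal) (hL : LastVertexGoal)
include hW hL

theorem sd_map_iff {X Y : SSet.{0}} (f : X ⟶ Y) : IsWE (SSet.sd.map f) ↔ IsWE f := by
  obtain ⟨lv, hlv, -⟩ := hL
  have := hW.1
  have e : SSet.sd.map f ≫ lv.app Y = lv.app X ≫ f := lv.naturality f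
  constructor
  · intro h
    refine IsWE.of_precomp (lv.app X) f (hlv X) ?_
    rw [← e]
    exact IsWE.comp_mem _ _ h (hlv Y)
  · intro h
    refine IsWE.of_postcomp _ (lv.app Y) (hlv Y) ?_
    rw [e]
    exact IsWE.comp_mem _ _ (hlv X) h

theorem ex_map_iff {X Y : SSet.{0}} (f : X ⟶ Y) : IsWE (SSet.ex.map f) ↔ IsWE f := by
  obtain ⟨lv, -, hη⟩ := hL
  have := hW.1
  have e : SSet.sdExAdjunction.homEquiv X X (lv.app X) ≫ SSet.ex.map f =
      f ≫ SSet.sdExAdjunction.homEquiv Y Y (lv.app Y) := by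
    rw [← Adjunction.homEquiv_naturality_right, ← Adjunction.homEquiv_naturality_left,
      show SSet.sd.map f ≫ lv.app Y = lv.app X ≫ f from lv.naturality f]
  constructor
  · intro h
    refine IsWE.of_postcomp f (SSet.sdExAdjunction.homEquiv Y Y (lv.app Y)) (hη Y) ?_
    rw [← e]
    exact IsWE.comp_mem _ _ (hη X) h
  · intro h
    refine IsWE.of_precomp (SSet.sdExAdjunction.homEquiv X X (lv.app X)) _ (hη X) ?_
    rw [e]
    exact IsWE.comp_mem _ _ h (hη Y)

theorem counit_app (X : SSet.{0}) : IsWE (SSet.sdExAdjunction.counit.app X) := by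
  obtain ⟨lv, hlv, hη⟩ := id hL
  have := hW.1
  refine IsWE.of_precomp (SSet.sd.map (SSet.sdExAdjunction.homEquiv X X (lv.app X))) _
    ((sd_map_iff hW hL _).2 (hη X)) ?_
  have e : SSet.sd.map (SSet.sdExAdjunction.homEquiv X X (lv.app X)) ≫
      SSet.sdExAdjunction.counit.app X = lv.app X :=
    (SSet.sdExAdjunction.homEquiv_counit X X _).symm.trans (Equiv.symm_apply_apply _ _)
  exact e.symm ▸ hlv X

theorem unit_app (X : SSet.{0}) : IsWE (SSet.sdExAdjunction.unit.app X) := by
  have := hW.1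
  refine (sd_map_iff hW hL _).1 (IsWE.of_postcomp _
    (SSet.sdExAdjunction.counit.app (SSet.sd.obj X)) (counit_app hW hL _) ?_)
  have e : SSet.sd.map (SSet.sdExAdjunction.unit.app X) ≫
      SSet.sdExAdjunction.counit.app (SSet.sd.obj X) = 𝟙 (SSet.sd.obj X) :=
    SSet.sdExAdjunction.left_triangle_components X
  obtain ⟨lv, hlv, -⟩ := hL
  exact e.symm ▸ IsWE.of_postcomp (𝟙 _) (lv.app X) (hlv X) ((Category.id_comp (lv.app X)).symm ▸ hlv X)

/-- A map is a weak homotopy equivalence iff its adjunct is. -/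
theorem homEquiv_iff {X Z : SSet.{0}} (f : SSet.sd.obj X ⟶ Z) :
    IsWE (SSet.sdExAdjunction.homEquiv X Z f) ↔ IsWE f := by
  have := hW.1
  rw [Adjunction.homEquiv_unit]
  constructor
  · intro h
    exact (ex_map_iff hW hL f).1 (IsWE.of_precomp _ _ (unit_app hW hL X) h)
  · intro h
    exact IsWE.comp_mem _ _ (unit_app hW hL X) ((ex_map_iff hW hL f).2 h)

end Vale.Agent.P213.SdEx
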