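import Vale.Agent.P213.Main.Glue
import Vale.Agent.P213.Main.SdEx
import Mathlib.AlgebraicTopology.SimplicialSet.AnodyneExtensions.Basic
import Mathlib.CategoryTheory.SmallObject.Basic

/-!
# Transfer of the Kan–Quillen structure along `c sd² ⊣ ex² G`
-/

open CategoryTheory CategoryTheory.Limits MorphismProperty HomotopicalAlgebra Simplicial
open scoped SSet.modelCategoryQuillen

namespace Vale.Agent.P213

universe u

variable {C : Type u} [Category.{0} C] (G : C ⥤ SSet.{0})

/-- The bundled goals of the strict-category half. -/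
structure NerveFacts : Prop where
  hasLimits : HasLimitsOfSize.{0, 0} C
  hasColimits : HasColimitsOfSize.{0, 0} C
  filtered : PreservesFilteredColimitsOfSize.{0, 0} G
  glue : GlueGoal G
  initial : InitialGoal G
  leftAdjoint : ∃ c : SSet.{0} ⥤ C, Nonempty (c ⊣ G)

variable {G} {c : SSet.{0} ⥤ C} (adj : c ⊣ G)

/-- The adjunction `c sd² ⊣ ex² G`. -/
noncomputable abbrev adj2 : SSet.sd ⋙ SSet.sd ⋙ c ⊣ ex2N G :=
  SSet.sdExAdjunction.comp (SSet.sdExAdjunction.comp adj)

/-- The generating cofibrations. -/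
noncomputable abbrev genI (c : SSet.{0} ⥤ C) : MorphismProperty C :=
  MorphismProperty.ofHoms fun n : ℕ => (SSet.sd ⋙ SSet.sd ⋙ c).map (SSet.boundary.{0} n).ι

/-- The generating trivial cofibrations. -/
noncomputable abbrev genJ (c : SSet.{0} ⥤ C) : MorphismProperty C :=
  MorphismProperty.ofHoms fun x : (n : ℕ) × Fin (n + 2) =>
    (SSet.sd ⋙ SSet.sd ⋙ c).map (SSet.horn.{0} (x.1 + 1) x.2).ι

include adj in
theorem rlp_genI {X Y : C} (p : X ⟶ Y) :
    (genI c).rlp p ↔ SSet.modelCategoryQuillen.I.{0}.rlp ((ex2N G).map p) := by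
  constructor
  · intro h A B i hi
    obtain ⟨n⟩ := hi
    exact ((adj2 adj).hasLiftingProperty_iff _ _).1 (h _ ⟨n⟩)
  · intro h A B i hi
    obtain ⟨n⟩ := hi
    exact ((adj2 adj).hasLiftingProperty_iff _ _).2 (h _ ⟨n⟩)

include adj in
theorem rlp_genJ : (genJ c).rlp = thomasonF G := by
  ext X Y p
  show (genJ c).rlp p ↔ SSet.modelCategoryQuillen.J.{0}.rlp ((ex2N G).map p)
  constructor
  · intro h A B i hi
    simp only [SSet.modelCategoryQuillen.J, iSup_iff] at hi
    obtain ⟨n, ⟨k⟩⟩ := hi
    exact ((adj2 adj).hasLiftingProperty_iff _ _).1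
      (h _ (MorphismProperty.ofHoms.mk (⟨n, k⟩ : (n : ℕ) × Fin (n + 2))))
  · intro h A B i hi
    obtain ⟨⟨n, k⟩⟩ := hi
    refine ((adj2 adj).hasLiftingProperty_iff _ _).2 (h _ ?_)
    simp only [SSet.modelCategoryQuillen.J, iSup_iff]
    exact ⟨n, ⟨k⟩⟩

variable (hS : SSetFacts) (hG : NerveFacts G)
include hS

theorem thomasonW_iff {X Y : C} (p : X ⟶ Y) :
    thomasonW G p ↔ IsWE ((ex2N G).map p) :=
  ((SdEx.ex_map_iff hS.twoThree hS.lastVertex _).trans
    (SdEx.ex_map_iff hS.twoThree hS.lastVertex _)).symm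

include adj in
theorem rlp_genI_eq : (genI c).rlp = thomasonF G ⊓ thomasonW G := by
  ext X Y p
  exact ((rlp_genI adj p).trans (hS.trivFib _).symm).trans
    (and_congr Iff.rfl (thomasonW_iff hS p).symm)

include hG

omit hS in
theorem preservesFiltered_ex2N (hex : ExFilteredGoal) :
    PreservesFilteredColimitsOfSize.{0, 0} (ex2N G) := by
  have := hG.filtered
  have : PreservesFilteredColimitsOfSize.{0, 0} SSet.ex.{0} := hex
  infer_instance

include adj in
/-- A family of images of maps with finite source permits the small object argument. -/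
theorem hasSmallObjectArgument_image {ι : Type} {A B : ι → SSet.{0}} (i : ∀ a, A a ⟶ B a)
    (hA : ∀ a, IsFinitelyPresentable.{0} (A a)) :
    HasSmallObjectArgument.{0}
      (MorphismProperty.ofHoms fun a => (SSet.sd ⋙ SSet.sd ⋙ c).map (i a)) := by
  have := hG.hasColimits
  have := preservesFiltered_ex2N hG hS.exFiltered
  let : Fact (Cardinal.aleph0.{0}).IsRegular := Cardinal.fact_isRegular_aleph0
  let : OrderBot Cardinal.aleph0.{0}.ord.ToType := Cardinal.orderBotAleph0OrdToType
  have : MorphismProperty.IsSmall.{0}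
      (MorphismProperty.ofHoms fun a => (SSet.sd ⋙ SSet.sd ⋙ c).map (i a)) := isSmall_ofHoms ..
  refine ⟨Cardinal.aleph0.{0}, inferInstance, inferInstance, { preservesColimit := ?_ }⟩
  intro A' B' X Y f hf g hg
  obtain ⟨a⟩ := hf
  have := hA a
  have : PreservesColimitsOfShape Cardinal.aleph0.{0}.ord.ToType
      (coyoneda.obj (Opposite.op ((SSet.sd ⋙ SSet.sd ⋙ c).obj (A a)))) :=
    preservesColimitsOfShape_of_natIso (F := ex2N G ⋙ coyoneda.obj (Opposite.op (A a)))
      (((adj2 adj).compCoyonedaIso).app (Opposite.op (A a))).symm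
  infer_instance

include adj in
theorem soa_genI : HasSmallObjectArgument.{0} (genI c) :=
  hasSmallObjectArgument_image adj hS hG _ fun _ => inferInstance

include adj in
theorem soa_genJ : HasSmallObjectArgument.{0} (genJ c) :=
  hasSmallObjectArgument_image adj hS hG (A := fun x : (n : ℕ) × Fin (n + 2) =>
    (SSet.horn.{0} (x.1 + 1) x.2 : SSet)) (fun x => (SSet.horn.{0} (x.1 + 1) x.2).ι)
    fun _ => inferInstance

include adj in
/-- A pushout of a coproduct of generating trivial cofibrations. -/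
theorem step_mem : (coproducts.{0} (genJ c)).pushouts ≤
    (monomorphisms SSet.{0} ⊓ IsWE).inverseImage G := by
  have := hG.hasColimits
  rintro Z Z' g ⟨X', Y', f, t, b, hf, hpo⟩
  obtain ⟨ι, x, ⟨e⟩⟩ := coproducts_ofHoms _ f hf
  let hor := fun a : ι => (SSet.horn.{0} ((x a).1 + 1) (x a).2).ι
  have : PreservesColimitsOfShape (Discrete ι) (SSet.sd ⋙ SSet.sd ⋙ c) :=
    (adj2 adj).leftAdjoint_preservesColimits.preservesColimitsOfShape
  let e' : Arrow.mk f ≅ Arrow.mk ((SSet.sd ⋙ SSet.sd ⋙ c).map (Limits.Sigma.map hor)) :=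
    e ≪≫ (mapSigmaIso (SSet.sd ⋙ SSet.sd ⋙ c) hor).symm
  have hpo' : IsPushout ((Arrow.leftFunc.mapIso e').inv ≫ t) ((SSet.sd ⋙ SSet.sd ⋙ c).map (Limits.Sigma.map hor))
      g ((Arrow.rightFunc.mapIso e').inv ≫ b) :=
    IsPushout.of_iso hpo (Arrow.leftFunc.mapIso e') (Iso.refl _) (Arrow.rightFunc.mapIso e')
      (Iso.refl _) ((Category.comp_id _).trans (Iso.hom_inv_id_assoc (Arrow.leftFunc.mapIso e') t).symm)
      (Arrow.w e'.hom).symm (by simp)
      ((Category.comp_id _).trans (Iso.hom_inv_id_assoc (Arrow.rightFunc.mapIso e') b).symm)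
  obtain ⟨hmono, hcomp⟩ := gluesAlong_sd2 adj hS hG.glue hor
    (fun a => Or.inr (by
      simp only [SSet.modelCategoryQuillen.J, iSup_iff]
      exact ⟨(x a).1, ⟨(x a).2⟩⟩)) _ _ g hpo'
  refine ⟨hmono, ?_⟩
  set u := (SSet.sd ⋙ SSet.sd).map (Limits.Sigma.map hor) with hu
  have hhor : ∀ a, Mono (hor a) := fun a => inferInstance
  have hm : Mono u := hS.sdMono _ (hS.sdMono _
    (MorphismProperty.colimitsOfShape_le _ (MorphismProperty.colimitsOfShape_colimMap _
      fun a => (MorphismProperty.monomorphisms.iff _).2 (hhor a.as))))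
  have hwe : IsWE u :=
    (SdEx.sd_map_iff hS.twoThree hS.lastVertex _).2
      ((SdEx.sd_map_iff hS.twoThree hS.lastVertex _).2 (hS.horn ι _ _))
  let a := adj.homEquiv _ _ ((Arrow.leftFunc.mapIso e').inv ≫ t)
  let k := adj.homEquiv _ _ ((Arrow.rightFunc.mapIso e').inv ≫ b)
  have sq : a ≫ G.map g = u ≫ k := by
    simp only [a, k, ← adj.homEquiv_naturality_right]
    exact (congrArg (adj.homEquiv _ _) hpo'.w).trans (adj.homEquiv_naturality_left u _)
  let P := IsPushout.of_hasPushout a u
  have hinl := (hS.cobase u a _ _ P.flip hm).2 hwe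
  have hdesc := hcomp _ _ (pushout.desc (G.map g) k sq) P (pushout.inl_desc _ _ _)
    (pushout.inr_desc _ _ _)
  have := hS.twoThree.1
  show IsWE (G.map g)
  rw [← pushout.inl_desc (G.map g) k sq]
  exact IsWE.comp_mem _ _ hinl hdesc

include adj in
theorem llp_thomasonF_le : (thomasonF G).llp ≤ thomasonC G ⊓ thomasonW G := by
  intro X Y f hf
  refine ⟨antitone_llp (show thomasonF G ⊓ thomasonW G ≤ thomasonF G from inf_le_left) _ hf, ?_⟩
  have := soa_genJ adj hS hG
  have := hG.filtered
  have := hS.twoThree.2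
  have : (monomorphisms SSet.{0} ⊓ IsWE).IsStableUnderTransfiniteComposition.{0} := hS.transfinite
  have : PreservesWellOrderContinuousOfShape (genJ c).smallObjectκ.ord.ToType G := ⟨fun j hj => by
    have : Nonempty (Set.Iio j) := by
      obtain ⟨i, hi⟩ := not_isMin_iff.1 hj.not_isMin
      exact ⟨⟨i, hi⟩⟩
    exact PreservesFilteredColimitsOfSize.preserves_filtered_colimits _⟩
  have : (thomasonW G).IsStableUnderRetracts :=
    inferInstanceAs (IsWE.inverseImage G).IsStableUnderRetracts
  rw [← rlp_genJ adj, llp_rlp_of_hasSmallObjectArgument'] at hf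
  refine (MorphismProperty.retracts_le_iff (Q := thomasonW G)).2 ?_ _ hf
  rintro A B i ⟨h⟩
  exact ((monomorphisms SSet.{0} ⊓ IsWE).transfiniteCompositionsOfShape_le _ _
    ⟨(h.ofLE (step_mem adj hS hG)).map⟩).2

include adj in
/-- The three classes form a model structure. -/
theorem isModelStructure_thomason :
    IsModelStructure (thomasonW G) (thomasonF G) (thomasonC G) := by
  have := hG.hasColimits
  have := hG.hasLimits
  have := hS.twoThree.1
  let : CategoryWithWeakEquivalences C := ⟨thomasonW G⟩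
  let : CategoryWithFibrations C := ⟨thomasonF G⟩
  let : CategoryWithCofibrations C := ⟨thomasonC G⟩
  have hsoaI := soa_genI adj hS hG
  have hsoaJ := soa_genJ adj hS hG
  have hI := rlp_genI_eq adj hS
  have hJ := rlp_genJ (G := G) adj
  have hC : thomasonC G = (genI c).rlp.llp := by rw [hI]; rfl
  have : (weakEquivalences C).HasTwoOutOfThreeProperty :=
    inferInstanceAs (IsWE.inverseImage G).HasTwoOutOfThreeProperty
  have : IsWeakFactorizationSystem (cofibrations C) (trivialFibrations C) := by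
    show IsWeakFactorizationSystem (thomasonC G) (thomasonF G ⊓ thomasonW G)
    refine ⟨?_, rfl, ?_⟩
    · rw [hC, rlp_llp_rlp, hI]
    · rw [hC, ← hI]; infer_instance
  have : IsWeakFactorizationSystem (trivialCofibrations C) (fibrations C) := by
    show IsWeakFactorizationSystem (thomasonC G ⊓ thomasonW G) (thomasonF G)
    have fac : HasFactorization (thomasonF G).llp (thomasonF G) := by
      rw [← hJ]; infer_instance
    have he : (thomasonF G).llp = thomasonC G ⊓ thomasonW G := by
      refine le_antisymm (llp_thomasonF_le adj hS hG) fun X Y f hf => ?_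
      have h := factorizationData (thomasonF G).llp (thomasonF G) f
      have hp : thomasonW G h.p := IsWE.of_precomp (G.map h.i) (G.map h.p)
        (llp_thomasonF_le adj hS hG _ h.hi).2 (by rw [← G.map_comp, h.fac]; exact hf.2)
      have := hf.1 _ ⟨h.hp, hp⟩
      exact MorphismProperty.of_retract (RetractArrow.ofLeftLiftingProperty h.fac) h.hi
    refine ⟨?_, ?_, ?_⟩
    · rw [← he, ← hJ, rlp_llp_rlp, hJ]
    · exact he
    · rw [← he]; exact fac
  exact ⟨ModelCategory.mk' C, rfl, rfl, rfl⟩

end Vale.Agent.P213
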